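import Vale.Agent.Lib.P052.Generic

set_option linter.unusedSectionVars false
set_option linter.unusedSimpArgs false

open Finset Matrix

namespace Vale.Agent.Lib.P052


/-- A real symmetric idempotent matrix of trace `d` is the Gram matrix of its columns, which lie in
a subspace of dimension `d`. -/
theorem exists_config_of_idempotent {V : Type*} [Fintype V] [DecidableEq V] (M : Matrix V V ℝ)
    (hM : M * M = M) (hs : Mᵀ = M) (d : ℕ) (ht : M.trace = d) :
    ∃ (W : Submodule ℝ (EuclideanSpace ℝ V)) (x : V → EuclideanSpace ℝ V),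
      Module.finrank ℝ W = d ∧ (∀ v, x v ∈ W) ∧ ∀ u v, inner ℝ (x u) (x v) = M u v := by
  set T : EuclideanSpace ℝ V →ₗ[ℝ] EuclideanSpace ℝ V := Matrix.toLpLin 2 2 M with hT
  have hidem : IsIdempotentElem T := by
    show T * T = T
    ext1 v
    simp only [hT, Module.End.mul_apply, Matrix.toLpLin_apply, Matrix.mulVec_mulVec, hM]
  have htr : LinearMap.trace ℝ _ T = M.trace := by
    rw [hT, Matrix.toLpLin_eq_toLin]
    exact Matrix.trace_toLin_eq M _
  refine ⟨LinearMap.range T, fun v => T (EuclideanSpace.single v 1), ?_, fun v => ⟨_, rfl⟩, ?_⟩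
  · have h := (LinearMap.IsIdempotentElem.isProj_range T hidem).trace
    rw [htr, ht] at h
    exact_mod_cast h.symm
  · intro u v
    have h1 : ∀ w, T (EuclideanSpace.single w 1) = WithLp.toLp 2 (fun k => M k w) := by
      intro w
      rw [hT, Matrix.toLpLin_apply]
      congr 1
      ext k
      simp [Matrix.mulVec, dotProduct]
    show inner ℝ (T (EuclideanSpace.single u 1)) (T (EuclideanSpace.single v 1)) = M u v
    rw [h1, h1]
    have h2 : (M * M) u v = M u v := by rw [hM]
    rw [← h2, Matrix.mul_apply]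
    simp only [PiLp.inner_apply, RCLike.inner_apply, conj_trivial]
    apply Finset.sum_congr rfl
    intro k _
    have : M u k = M k u := by
      conv_lhs => rw [← hs]
      rfl
    rw [this]; ring



/-- Deflation: removing a fixed vector `g` from a symmetric idempotent matrix. -/
theorem deflate {V : Type*} [Fintype V] [DecidableEq V] (E : Matrix V V ℝ)
    (hE : E * E = E) (hs : Eᵀ = E) (g : V → ℝ) (c : ℝ) (hc : c ≠ 0)
    (hg : E *ᵥ g = g) (hgg : g ⬝ᵥ g = c) :
    (E - c⁻¹ • vecMulVec g g) * (E - c⁻¹ • vecMulVec g g) = E - c⁻¹ • vecMulVec g g ∧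
    (E - c⁻¹ • vecMulVec g g)ᵀ = E - c⁻¹ • vecMulVec g g ∧
    (E - c⁻¹ • vecMulVec g g).trace = E.trace - 1 ∧
    ∀ h : V → ℝ, E *ᵥ h = h → g ⬝ᵥ h = 0 → (E - c⁻¹ • vecMulVec g g) *ᵥ h = h := by
  have hg' : g ᵥ* E = g := by
    rw [← Matrix.mulVec_transpose, hs, hg]
  refine ⟨?_, ?_, ?_, ?_⟩
  · rw [sub_mul, mul_sub, mul_sub, hE, Matrix.mul_smul, Matrix.smul_mul, Matrix.smul_mul,
      Matrix.mul_smul, Matrix.mul_vecMulVec, Matrix.vecMulVec_mul, Matrix.vecMulVec_mul_vecMulVec,
      hg, hg', hgg, Matrix.vecMulVec_smul, smul_smul, smul_smul, mul_assoc, inv_mul_cancel₀ hc,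
      mul_one]
    abel
  · rw [Matrix.transpose_sub, Matrix.transpose_smul, Matrix.transpose_vecMulVec, hs]
  · rw [Matrix.trace_sub, Matrix.trace_smul, Matrix.trace_vecMulVec, hgg, smul_eq_mul,
      inv_mul_cancel₀ hc]
  · intro h hh hgh
    rw [Matrix.sub_mulVec, hh, Matrix.smul_mulVec, Matrix.vecMulVec_mulVec, hgh]
    simp



section srg

variable {V : Type*} [Fintype V] [DecidableEq V]

/-- real 0/1 adjacency matrix of a relation -/
def adjM (adj : V → V → Prop) [DecidableRel adj] : Matrix V V ℝ :=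
  Matrix.of fun u v => if adj u v then 1 else 0

/-- all-ones matrix -/
def onesM : Matrix V V ℝ := Matrix.of fun _ _ => 1

/-- indicator vector -/
def ind (C : Finset V) : V → ℝ := fun v => if v ∈ C then 1 else 0

theorem ind_dot_ind (C D : Finset V) : ind C ⬝ᵥ ind D = ((C ∩ D).card : ℝ) := by
  simp only [ind, dotProduct, ← ite_and, mul_ite, mul_one, mul_zero]
  rw [Finset.card_eq_sum_ones, Nat.cast_sum, Nat.cast_one, ← Finset.sum_filter]
  congr 1
  ext v
  simp [and_comm]

theorem onesM_mulVec (g : V → ℝ) : (onesM : Matrix V V ℝ) *ᵥ g = fun _ => ∑ v, g v := by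
  ext u
  simp [onesM, Matrix.mulVec, dotProduct]

theorem sum_ind (C : Finset V) : ∑ v, ind C v = (C.card : ℝ) := by
  simp [ind]

theorem adjM_mulVec_ind (adj : V → V → Prop) [DecidableRel adj] (C : Finset V) (v : V) :
    (adjM adj *ᵥ ind C) v = ((C.filter (adj v)).card : ℝ) := by
  simp only [adjM, ind, Matrix.mulVec, dotProduct, Matrix.of_apply, ← ite_and, mul_ite, mul_one,
    mul_zero]
  rw [Finset.card_eq_sum_ones, Nat.cast_sum, Nat.cast_one, ← Finset.sum_filter]
  congr 1
  ext w
  simp [and_comm]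

variable (adj : V → V → Prop) [DecidableRel adj]

theorem adjM_transpose (hsymm : ∀ u v, adj u v → adj v u) : (adjM adj)ᵀ = adjM adj := by
  ext u v
  have : adj v u ↔ adj u v := ⟨hsymm _ _, hsymm _ _⟩
  simp [adjM, this]

theorem onesM_transpose : (onesM : Matrix V V ℝ)ᵀ = onesM := by
  ext u v
  simp [onesM]

theorem adjM_mul_adjM (hsymm : ∀ u v, adj u v → adj v u) (hirr : ∀ v, ¬ adj v v)
    (hsrg : ∀ u v, (Finset.univ.filter (fun w => adj u w ∧ adj v w)).card
      = if u = v then 100 else if adj u v then 36 else 20) :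
    adjM adj * adjM adj = (16 : ℝ) • adjM adj + (80 : ℝ) • (1 : Matrix V V ℝ) + (20 : ℝ) • onesM := by
  ext u v
  have h1 : (adjM adj * adjM adj) u v
      = ((Finset.univ.filter (fun w => adj u w ∧ adj v w)).card : ℝ) := by
    simp only [adjM, Matrix.mul_apply, Matrix.of_apply, ← ite_and, mul_ite, mul_one, mul_zero]
    rw [Finset.card_eq_sum_ones, Nat.cast_sum, Nat.cast_one, ← Finset.sum_filter]
    congr 1
    ext w
    have : adj w v ↔ adj v w := ⟨hsymm _ _, hsymm _ _⟩
    simp [and_comm, this]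
  rw [h1, hsrg]
  by_cases huv : u = v
  · subst huv
    simp [adjM, onesM, hirr]
    norm_num
  · by_cases ha : adj u v
    · simp [adjM, onesM, huv, ha]
      norm_num
    · simp [adjM, onesM, huv, ha]

theorem adjM_mul_onesM
    (hsrg : ∀ u v, (Finset.univ.filter (fun w => adj u w ∧ adj v w)).card
      = if u = v then 100 else if adj u v then 36 else 20) :
    adjM adj * onesM = (100 : ℝ) • (onesM : Matrix V V ℝ) := by
  ext u v
  have h := hsrg u u
  simp only [and_self, if_true] at h
  simp only [adjM, onesM, Matrix.mul_apply, Matrix.of_apply, mul_one, Matrix.smul_apply,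
    smul_eq_mul]
  rw [Finset.sum_ite, Finset.sum_const_zero, add_zero, Finset.sum_const, h]
  simp

theorem onesM_mul_adjM (hsymm : ∀ u v, adj u v → adj v u)
    (hsrg : ∀ u v, (Finset.univ.filter (fun w => adj u w ∧ adj v w)).card
      = if u = v then 100 else if adj u v then 36 else 20) :
    onesM * adjM adj = (100 : ℝ) • (onesM : Matrix V V ℝ) := by
  have h := congrArg Matrix.transpose (adjM_mul_onesM adj hsrg)
  rwa [Matrix.transpose_mul, Matrix.transpose_smul, onesM_transpose, adjM_transpose adj hsymm] at h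

theorem onesM_mul_onesM : (onesM : Matrix V V ℝ) * onesM = (Fintype.card V : ℝ) • onesM := by
  ext u v
  simp [onesM, Matrix.mul_apply]

end srg



section srg

variable {V : Type*} [Fintype V] [DecidableEq V] (adj : V → V → Prop) [DecidableRel adj]

/-- the projector onto the eigenvalue-20 eigenspace of an srg(416,100,36,20) -/
noncomputable def projE : Matrix V V ℝ :=
  (1 / 96 : ℝ) • ((16 : ℝ) • (1 : Matrix V V ℝ) + (4 : ℝ) • adjM adj - onesM)

theorem projE_apply (u v : V) :
    projE adj u v = (16 * (if u = v then 1 else 0) + 4 * (if adj u v then 1 else 0) - 1) / 96 := by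
  simp only [projE, adjM, onesM, Matrix.smul_apply, Matrix.sub_apply, Matrix.add_apply,
    Matrix.one_apply, Matrix.of_apply, smul_eq_mul]
  ring

theorem projE_mul_self (hV : Fintype.card V = 416)
    (hsymm : ∀ u v, adj u v → adj v u) (hirr : ∀ v, ¬ adj v v)
    (hsrg : ∀ u v, (Finset.univ.filter (fun w => adj u w ∧ adj v w)).card
      = if u = v then 100 else if adj u v then 36 else 20) :
    projE adj * projE adj = projE adj := by
  have hAA := adjM_mul_adjM adj hsymm hirr hsrg
  have hAJ := adjM_mul_onesM adj hsrg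
  have hJA := onesM_mul_adjM adj hsymm hsrg
  have hJJ : (onesM : Matrix V V ℝ) * onesM = (416 : ℝ) • onesM := by
    rw [onesM_mul_onesM, hV]; norm_num
  simp only [projE, smul_mul_assoc, mul_smul_comm, sub_mul, mul_sub, add_mul, mul_add, one_mul,
    mul_one, hAA, hAJ, hJA, hJJ]
  module

theorem projE_transpose (hsymm : ∀ u v, adj u v → adj v u) : (projE adj)ᵀ = projE adj := by
  simp only [projE, Matrix.transpose_smul, Matrix.transpose_sub, Matrix.transpose_add,
    Matrix.transpose_one, adjM_transpose adj hsymm, onesM_transpose]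

theorem projE_trace (hV : Fintype.card V = 416) (hirr : ∀ v, ¬ adj v v) :
    (projE adj).trace = 65 := by
  simp only [Matrix.trace, Matrix.diag_apply, projE_apply, hirr, if_true, if_false]
  simp [hV]
  norm_num

theorem projE_mulVec (g : V → ℝ) (hg : adjM adj *ᵥ g = (20 : ℝ) • g) (hsum : ∑ v, g v = 0) :
    projE adj *ᵥ g = g := by
  simp only [projE, Matrix.smul_mulVec, Matrix.sub_mulVec, Matrix.add_mulVec, Matrix.one_mulVec,
    hg, onesM_mulVec, hsum]
  ext v
  simp only [Pi.smul_apply, Pi.sub_apply, Pi.add_apply, smul_eq_mul]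
  ring

end srg



section srg

variable {V : Type*} [Fintype V] [DecidableEq V] (adj : V → V → Prop) [DecidableRel adj]

/-- The matrix `M` of the construction exists: a symmetric idempotent of trace 63 whose entries
agree with those of `projE` as soon as one index lies outside `C1 ∪ C2 ∪ C3`, and with
`M y y = 13/96` for `y ∈ C1`. -/
theorem exists_matrix63 (hV : Fintype.card V = 416)
    (hsymm : ∀ u v, adj u v → adj v u) (hirr : ∀ v, ¬ adj v v)
    (hsrg : ∀ u v, (Finset.univ.filter (fun w => adj u w ∧ adj v w)).card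
      = if u = v then 100 else if adj u v then 36 else 20)
    (C1 C2 C3 : Finset V) (h1 : C1.card = 32) (h2 : C2.card = 32) (h3 : C3.card = 32)
    (h12 : Disjoint C1 C2) (h13 : Disjoint C1 C3) (h23 : Disjoint C2 C3)
    (hC12 : ∀ v, ((C1.filter (adj v)).card : ℤ) - (C2.filter (adj v)).card
      = 20 * ((if v ∈ C1 then 1 else 0) - (if v ∈ C2 then 1 else 0)))
    (hC23 : ∀ v, ((C2.filter (adj v)).card : ℤ) - (C3.filter (adj v)).card
      = 20 * ((if v ∈ C2 then 1 else 0) - (if v ∈ C3 then 1 else 0))) :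
    ∃ M : Matrix V V ℝ, M * M = M ∧ Mᵀ = M ∧ M.trace = (63 : ℕ) ∧
      (∀ u v, (v ∉ C1 ∧ v ∉ C2 ∧ v ∉ C3) → M u v = projE adj u v) ∧
      (∀ u v, (u ∉ C1 ∧ u ∉ C2 ∧ u ∉ C3) → M u v = projE adj u v) ∧
      (∀ y ∈ C1, M y y = 13 / 96) := by
  set E := projE adj with hE
  set g1 : V → ℝ := ind C1 - ind C2 with hg1
  set g2 : V → ℝ := ind C1 + ind C2 - (2 : ℝ) • ind C3 with hg2
  have hEE := projE_mul_self adj hV hsymm hirr hsrg
  have hEt := projE_transpose adj hsymm
  have hEtr := projE_trace adj hV hirr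
  -- intersections
  have i11 : ind C1 ⬝ᵥ ind C1 = 32 := by rw [ind_dot_ind, Finset.inter_self, h1]; norm_num
  have i22 : ind C2 ⬝ᵥ ind C2 = 32 := by rw [ind_dot_ind, Finset.inter_self, h2]; norm_num
  have i33 : ind C3 ⬝ᵥ ind C3 = 32 := by rw [ind_dot_ind, Finset.inter_self, h3]; norm_num
  have i12 : ind C1 ⬝ᵥ ind C2 = 0 := by
    rw [ind_dot_ind, Finset.disjoint_iff_inter_eq_empty.mp h12]; simp
  have i13 : ind C1 ⬝ᵥ ind C3 = 0 := by
    rw [ind_dot_ind, Finset.disjoint_iff_inter_eq_empty.mp h13]; simp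
  have i23 : ind C2 ⬝ᵥ ind C3 = 0 := by
    rw [ind_dot_ind, Finset.disjoint_iff_inter_eq_empty.mp h23]; simp
  have i21 : ind C2 ⬝ᵥ ind C1 = 0 := by rw [dotProduct_comm, i12]
  have i31 : ind C3 ⬝ᵥ ind C1 = 0 := by rw [dotProduct_comm, i13]
  have i32 : ind C3 ⬝ᵥ ind C2 = 0 := by rw [dotProduct_comm, i23]
  have g11 : g1 ⬝ᵥ g1 = 64 := by
    simp only [hg1, sub_dotProduct, dotProduct_sub, i11, i12, i21, i22]; norm_num
  have g22 : g2 ⬝ᵥ g2 = 192 := by
    simp only [hg2, sub_dotProduct, dotProduct_sub, add_dotProduct, dotProduct_add,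
      smul_dotProduct, dotProduct_smul, i11, i12, i21, i22, i13, i31, i23, i32, i33, smul_eq_mul]
    norm_num
  have g12 : g1 ⬝ᵥ g2 = 0 := by
    simp only [hg1, hg2, sub_dotProduct, dotProduct_sub, add_dotProduct, dotProduct_add,
      smul_dotProduct, dotProduct_smul, i11, i12, i21, i22, i13, i31, i23, i32, i33, smul_eq_mul]
    norm_num
  -- eigenvector equations
  have a12 : ∀ v, (adjM adj *ᵥ ind C1) v - (adjM adj *ᵥ ind C2) v = 20 * (ind C1 v - ind C2 v) := by
    intro v
    rw [adjM_mulVec_ind, adjM_mulVec_ind]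
    have := hC12 v
    have h' : (((C1.filter (adj v)).card : ℤ) - (C2.filter (adj v)).card : ℝ)
      = ((20 * ((if v ∈ C1 then 1 else 0) - (if v ∈ C2 then 1 else 0)) : ℤ) : ℝ) := by
      rw [← this]; push_cast; ring
    push_cast at h'
    simpa [ind] using h'
  have a23 : ∀ v, (adjM adj *ᵥ ind C2) v - (adjM adj *ᵥ ind C3) v = 20 * (ind C2 v - ind C3 v) := by
    intro v
    rw [adjM_mulVec_ind, adjM_mulVec_ind]
    have := hC23 v
    have h' : (((C2.filter (adj v)).card : ℤ) - (C3.filter (adj v)).card : ℝ)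
      = ((20 * ((if v ∈ C2 then 1 else 0) - (if v ∈ C3 then 1 else 0)) : ℤ) : ℝ) := by
      rw [← this]; push_cast; ring
    push_cast at h'
    simpa [ind] using h'
  have e1 : E *ᵥ g1 = g1 := by
    apply projE_mulVec
    · ext v
      simp only [hg1, Matrix.mulVec_sub, Pi.sub_apply, Pi.smul_apply, smul_eq_mul]
      exact a12 v
    · simp only [hg1, Pi.sub_apply, Finset.sum_sub_distrib, sum_ind, h1, h2]; norm_num
  have e2 : E *ᵥ g2 = g2 := by
    apply projE_mulVec
    · ext v
      simp only [hg2, Matrix.mulVec_sub, Matrix.mulVec_add, Matrix.mulVec_smul, Pi.sub_apply,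
        Pi.add_apply, Pi.smul_apply, smul_eq_mul]
      have := a12 v
      have := a23 v
      linarith
    · simp only [hg2, Pi.sub_apply, Pi.add_apply, Pi.smul_apply, smul_eq_mul,
        Finset.sum_sub_distrib, Finset.sum_add_distrib, ← Finset.mul_sum, sum_ind, h1, h2, h3]
      norm_num
  obtain ⟨d1, d2, d3, d4⟩ := deflate E hEE hEt g1 64 (by norm_num) e1 g11
  obtain ⟨f1, f2, f3, -⟩ := deflate _ d1 d2 g2 192 (by norm_num) (d4 g2 e2 g12) g22
  refine ⟨_, f1, f2, ?_, ?_, ?_, ?_⟩
  · rw [f3, d3, hEtr]; norm_num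
  · rintro u v ⟨hv1, hv2, hv3⟩
    simp [Matrix.sub_apply, Matrix.smul_apply, Matrix.vecMulVec_apply, hg1, hg2, ind, hv1, hv2, hv3]
  · rintro u v ⟨hv1, hv2, hv3⟩
    simp [Matrix.sub_apply, Matrix.smul_apply, Matrix.vecMulVec_apply, hg1, hg2, ind, hv1, hv2, hv3]
  · intro y hy
    have hy2 : y ∉ C2 := Finset.disjoint_left.mp h12 hy
    have hy3 : y ∉ C3 := Finset.disjoint_left.mp h13 hy
    simp only [Matrix.sub_apply, Matrix.smul_apply, Matrix.vecMulVec_apply, hg1, hg2, ind, hy, hy2,
      hy3, hE, projE_apply, hirr, Pi.sub_apply, Pi.add_apply, Pi.smul_apply, smul_eq_mul, if_true,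
      if_false]
    norm_num

end srg



section srg

variable {V : Type*} [Fintype V] [DecidableEq V] (adj : V → V → Prop) [DecidableRel adj]

theorem norm_sub_sq_smul {E : Type*} [NormedAddCommGroup E] [InnerProductSpace ℝ E]
    (a b : ℝ) (x y : E) :
    ‖a • x - b • y‖ ^ 2 = a ^ 2 * inner ℝ x x + b ^ 2 * inner ℝ y y - 2 * (a * b) * inner ℝ x y := by
  rw [@norm_sub_sq_real, norm_smul, norm_smul, mul_pow, mul_pow, inner_smul_left, inner_smul_right,
    real_inner_self_eq_norm_sq, real_inner_self_eq_norm_sq]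
  simp only [Real.norm_eq_abs, sq_abs, conj_trivial]
  ring

/-- **Reduction of the 63-dimensional counterexample to finite combinatorics.** -/
theorem not_borsuk_63_of_srg (hV : Fintype.card V = 416)
    (hsymm : ∀ u v, adj u v → adj v u) (hirr : ∀ v, ¬ adj v v)
    (hsrg : ∀ u v, (Finset.univ.filter (fun w => adj u w ∧ adj v w)).card
      = if u = v then 100 else if adj u v then 36 else 20)
    (C1 C2 C3 : Finset V) (h1 : C1.card = 32) (h2 : C2.card = 32) (h3 : C3.card = 32)
    (h12 : Disjoint C1 C2) (h13 : Disjoint C1 C3) (h23 : Disjoint C2 C3)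
    (hC12 : ∀ v, ((C1.filter (adj v)).card : ℤ) - (C2.filter (adj v)).card
      = 20 * ((if v ∈ C1 then 1 else 0) - (if v ∈ C2 then 1 else 0)))
    (hC23 : ∀ v, ((C2.filter (adj v)).card : ℤ) - (C3.filter (adj v)).card
      = 20 * ((if v ∈ C2 then 1 else 0) - (if v ∈ C3 then 1 else 0)))
    (hclique : ∀ T : Finset V, (∀ i ∈ T, ∀ j ∈ T, i ≠ j → adj i j) → T.card ≤ 5) :
    ¬ BorsukConjecture 63 := by
  obtain ⟨M, hMM, hMt, hMtr, hMr, hMl, hMy⟩ := exists_matrix63 adj hV hsymm hirr hsrg C1 C2 C3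
    h1 h2 h3 h12 h13 h23 hC12 hC23
  obtain ⟨W, x, hW, hxW, hx⟩ := exists_config_of_idempotent M hMM hMt 63 hMtr
  have hne : C1.Nonempty := by
    rw [← Finset.card_pos, h1]; norm_num
  obtain ⟨y, hy⟩ := hne
  have hy2 : y ∉ C2 := Finset.disjoint_left.mp h12 hy
  have hy3 : y ∉ C3 := Finset.disjoint_left.mp h13 hy
  -- the scaling factor
  set t : ℝ := (Real.sqrt 222 - 1) / 13 with ht
  have hsq : Real.sqrt 222 ^ 2 = 222 := Real.sq_sqrt (by norm_num)
  have ht1 : 13 * t ^ 2 + 2 * t = 17 := by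
    rw [ht]; field_simp; nlinarith [hsq]
  have ht0 : 0 < t := by
    have : (1 : ℝ) < Real.sqrt 222 := by
      rw [show (1 : ℝ) = Real.sqrt 1 by simp]
      exact Real.sqrt_lt_sqrt (by norm_num) (by norm_num)
    rw [ht]; apply div_pos <;> linarith
  -- index type
  let p : V → Prop := fun v => v = y ∨ (v ∉ C1 ∧ v ∉ C2 ∧ v ∉ C3)
  let s : V → ℝ := fun v => if v = y then t else 1
  have hcard : Fintype.card {v // p v} = 321 := by
    rw [Fintype.card_subtype]
    have : (Finset.univ.filter p) = insert y (Finset.univ \ (C1 ∪ C2 ∪ C3)) := by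
      ext v
      simp [p, not_or, and_assoc]
    rw [this, Finset.card_insert_of_notMem (by simp [hy]), Finset.card_sdiff_of_subset
      (Finset.subset_univ _), Finset.card_univ, hV, Finset.card_union_of_disjoint
      (by rw [Finset.disjoint_union_left]; exact ⟨h13, h23⟩), Finset.card_union_of_disjoint h12,
      h1, h2, h3]
  have hcl : ∀ T : Finset {v // p v}, (∀ i ∈ T, ∀ j ∈ T, i ≠ j → adj i.1 j.1) → T.card ≤ 5 := by
    intro T hT
    rw [← Finset.card_map (Function.Embedding.subtype p)]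
    apply hclique
    intro i hi j hj hij
    rw [Finset.mem_map] at hi hj
    obtain ⟨i', hi', rfl⟩ := hi
    obtain ⟨j', hj', rfl⟩ := hj
    exact hT i' hi' j' hj' (fun h => hij (by rw [h]))
  have hex : ∃ i j : {v // p v}, i ≠ j ∧ ¬ adj i.1 j.1 := by
    by_contra hcon
    push Not at hcon
    have := hcl Finset.univ (fun i _ j _ hij => hcon i j hij)
    rw [Finset.card_univ, hcard] at this
    omega
  have : FiniteDimensional ℝ W := inferInstance
  -- the squared distances
  have hdist : ∀ i j : {v // p v}, i ≠ j →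
      ‖s i.1 • x i.1 - s j.1 • x j.1‖ ^ 2 = if adj i.1 j.1 then
        (if i.1 = y ∨ j.1 = y then 1 / 3 - t / 12 else 1 / 4) else 1 / 3 := by
    rintro ⟨i, hi⟩ ⟨j, hj⟩ hij
    have hij' : i ≠ j := fun h => hij (Subtype.ext h)
    simp only [norm_sub_sq_smul, hx]
    by_cases hiy : i = y
    · subst hiy
      have hjy : j ≠ i := fun h => hij' h.symm
      have hj' : j ∉ C1 ∧ j ∉ C2 ∧ j ∉ C3 := hj.resolve_left hjy
      rw [hMy i hy, hMr j j hj', hMr i j hj']
      simp only [projE_apply, s, hjy, hij', hirr, if_true, if_false, true_or]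
      by_cases ha : adj i j
      · simp only [ha, if_true]; nlinarith [ht1]
      · simp only [ha, if_false]; nlinarith [ht1]
    · have hi' : i ∉ C1 ∧ i ∉ C2 ∧ i ∉ C3 := hi.resolve_left hiy
      by_cases hjy : j = y
      · subst hjy
        rw [hMy j hy, hMr i i hi', hMl i j hi']
        simp only [projE_apply, s, hiy, hij', hirr, if_true, if_false, or_true]
        by_cases ha : adj i j
        · simp only [ha, if_true]; nlinarith [ht1]
        · simp only [ha, if_false]; nlinarith [ht1]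
      · have hj' : j ∉ C1 ∧ j ∉ C2 ∧ j ∉ C3 := hj.resolve_left hjy
        rw [hMr i i hi', hMr j j hj', hMr i j hj']
        simp only [projE_apply, s, hiy, hjy, hij', hirr, if_true, if_false, or_self]
        by_cases ha : adj i j
        · simp only [ha, if_true]; norm_num
        · simp only [ha, if_false]; norm_num
  refine not_borsuk_of_config_sq (m := 5) (fun i : {v // p v} => s i.1 • x i.1) W hW.le
    (fun i => W.smul_mem _ (hxW _)) (fun i j => adj i.1 j.1) (1 / 3) (by norm_num) ?_ ?_ hex hcl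
    (by rw [hcard]; norm_num)
  · intro i j hij ha
    rw [hdist i j hij, if_neg ha]
  · intro i j hij ha
    rw [hdist i j hij, if_pos ha]
    split_ifs
    · linarith
    · norm_num

end srg

end Vale.Agent.Lib.P052
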