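import Vale.Agent.Lib.P052.Defs

namespace Vale.Agent.Lib.P052

set_option maxRecDepth 100000 in
theorem clq_chunk6 : allTailsN top5 22 (g321.drop 77) = true := by decide +kernel

end Vale.Agent.Lib.P052
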