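import Vale.Agent.Lib.P052.Data

/-!
Kernel-friendly computations on the G2(4) graph data.  Everything here is written with
recursors and primitive `Nat` functions so that the kernel evaluates it quickly.
-/

namespace Vale.Agent.Lib.P052

noncomputable section

/-- bit `k` of `r`, as `0` or `1`. -/
def abit (r k : Nat) : Nat := Nat.land (Nat.shiftRight r k) 1

/-- label of a vertex: `0` on the 320 vertices, `1,2,3` on the three 32-sets. -/
def lab (i : Nat) : Nat :=
  cond (Nat.blt i 320) 0 (cond (Nat.blt i 352) 1 (cond (Nat.blt i 384) 2 3))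

def wt (a b : Nat) : Nat :=
  cond (Nat.beq a 0) 2 (cond (Nat.beq b 0) 2 (cond (Nat.beq a b) 0 3))

/-- the base of the packing -/
def bs : Nat := 262144

/-- evaluate `x` first (the kernel computes the literal), then call `f`. -/
def strictN {α : Type} (x : Nat) (f : Nat → α) : α :=
  Nat.rec (motive := fun _ => α) (f x) (fun n _ => f n) (Nat.add x 1)

/-- select among four values -/
def sel4 (l w0 w1 w2 w3 : Nat) : Nat :=
  Nat.rec (motive := fun _ => Nat) w0 (fun l1 _ =>
    Nat.rec (motive := fun _ => Nat) w1 (fun l2 _ =>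
      Nat.rec (motive := fun _ => Nat) w2 (fun _ _ => w3) l2) l1) l

/-- `Σ_q abit r q.1 * bs ^ q.1` -/
def spreadRow (r : Nat) (l : List (Nat × Nat)) : Nat :=
  List.rec (motive := fun _ => Nat) 0
    (fun q _ ih => Nat.rec (motive := fun _ => Nat) ih (fun _ _ => Nat.add (Nat.pow bs q.1) ih)
      (abit r q.1)) l

/-- `Σ_q wt a (lab q.1) * bs ^ q.1` -/
def wpack (a : Nat) (l : List (Nat × Nat)) : Nat :=
  List.rec (motive := fun _ => Nat) 0
    (fun q _ ih => Nat.add (Nat.mul (wt a (lab q.1)) (Nat.pow bs q.1)) ih) l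

def onesOf (l : List (Nat × Nat)) : Nat :=
  List.rec (motive := fun _ => Nat) 0 (fun q _ ih => Nat.add (Nat.pow bs q.1) ih) l

/-- build the list of `(vertex data, packed row)` and pass it to `k`. -/
def mkRL (l0 : List (Nat × Nat)) (w0 w1 w2 w3 : Nat) (k : List ((Nat × Nat) × Nat) → Bool)
    (l : List (Nat × Nat)) : List ((Nat × Nat) × Nat) → Bool :=
  List.rec (motive := fun _ => List ((Nat × Nat) × Nat) → Bool) (fun acc => k acc)
    (fun q _ ih acc =>
      strictN (Nat.add (Nat.add (Nat.mul 4 (spreadRow q.2 l0)) (Nat.mul 16 (Nat.pow bs q.1)))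
        (sel4 (lab q.1) w0 w1 w2 w3)) (fun R => ih ((q, R) :: acc))) l

/-- `Σ_t abit t.1.2 i * t.2` -/
def colDot (i : Nat) (RL : List ((Nat × Nat) × Nat)) : Nat :=
  List.rec (motive := fun _ => Nat) 0
    (fun t _ ih => Nat.rec (motive := fun _ => Nat) ih (fun _ _ => Nat.add t.2 ih)
      (abit t.1.2 i)) RL

/-- `Σ_t wt (lab t.1.1) b * t.2` -/
def wdot (b : Nat) (RL : List ((Nat × Nat) × Nat)) : Nat :=
  List.rec (motive := fun _ => Nat) 0
    (fun t _ ih => Nat.add (Nat.mul (wt (lab t.1.1) b) t.2) ih) RL

def sumR (RL : List ((Nat × Nat) × Nat)) : Nat :=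
  List.rec (motive := fun _ => Nat) 0 (fun t _ ih => Nat.add t.2 ih) RL

def checkRows (c v0 v1 v2 v3 : Nat) (RL : List ((Nat × Nat) × Nat))
    (RL' : List ((Nat × Nat) × Nat)) : Bool :=
  List.rec (motive := fun _ => Bool) true
    (fun t _ ih => Bool.rec (motive := fun _ => Bool) false ih
      (Nat.beq (Nat.add (Nat.add (Nat.mul 4 (colDot t.1.1 RL)) (Nat.mul 16 t.2))
          (sel4 (lab t.1.1) v0 v1 v2 v3))
        (Nat.add (Nat.mul 96 t.2) c))) RL'

/-- the whole check of `Kpᵀ Kp = 96 Kp + 3456 J` and of the column sums `1248`. -/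
def checkGram (l : List (Nat × Nat)) : Bool :=
  strictN (onesOf l) (fun ones =>
  strictN (Nat.mul 3456 ones) (fun c =>
  strictN (wpack 0 l) (fun w0 =>
  strictN (wpack 1 l) (fun w1 =>
  strictN (wpack 2 l) (fun w2 =>
  strictN (wpack 3 l) (fun w3 =>
    mkRL l w0 w1 w2 w3 (fun RL =>
      strictN (wdot 0 RL) (fun v0 =>
      strictN (wdot 1 RL) (fun v1 =>
      strictN (wdot 2 RL) (fun v2 =>
      strictN (wdot 3 RL) (fun v3 =>
        Bool.rec (motive := fun _ => Bool) false (checkRows c v0 v1 v2 v3 RL RL)
          (Nat.beq (sumR RL) (Nat.mul 1248 ones))))))) l []))))))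

/-- no loops, and the trace -/
def diagOK (l : List (Nat × Nat)) : Bool :=
  List.rec (motive := fun _ => Bool) true
    (fun q _ ih => Bool.rec (motive := fun _ => Bool) false ih (Nat.beq (abit q.2 q.1) 0)) l

/-- filter `l` by adjacency to the mask `r` (accumulator version). -/
def filt (r : Nat) (l : List (Nat × Nat)) : List (Nat × Nat) → List (Nat × Nat) :=
  List.rec (motive := fun _ => List (Nat × Nat) → List (Nat × Nat)) (fun acc => acc)
    (fun p _ ih acc => Nat.rec (motive := fun _ => List (Nat × Nat)) (ih acc)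
      (fun _ _ => ih (p :: acc)) (abit r p.1)) l

def allTails (f : Nat × Nat → List (Nat × Nat) → Bool) (l : List (Nat × Nat)) : Bool :=
  List.rec (motive := fun _ => Bool) true
    (fun v cs ih => Bool.rec (motive := fun _ => Bool) false ih (f v cs)) l

/-- the same as `allTails`, but only for the first `m` positions of the list. -/
def allTailsN (f : Nat × Nat → List (Nat × Nat) → Bool) (m : Nat) : List (Nat × Nat) → Bool :=
  Nat.rec (motive := fun _ => List (Nat × Nat) → Bool) (fun _ => true)
    (fun _ ih l => List.rec (motive := fun _ => Bool) true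
      (fun v cs _ => Bool.rec (motive := fun _ => Bool) false (ih cs) (f v cs)) l) m

/-- `noClq r l = true` means: no `r` pairwise adjacent vertices in the list `l`. -/
def noClq (r : Nat) : List (Nat × Nat) → Bool :=
  Nat.rec (motive := fun _ => List (Nat × Nat) → Bool) (fun _ => false)
    (fun _ ih l => allTails (fun v cs => ih (filt v.2 cs [])) l) r

/-- the first 321 vertices: the 320 vertices of label `0` and one vertex of label `1`. -/
def g321 : List (Nat × Nat) := graphData.take 321

/-- the test applied at the top level of the search for a 6-clique -/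
def top5 (v : Nat × Nat) (cs : List (Nat × Nat)) : Bool := noClq 5 (filt v.2 cs [])

end

end Vale.Agent.Lib.P052
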