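import Mathlib
import Vale.Agent.Lib.P052.Defs

/-!
Specifications of the kernel-friendly functions of `Defs.lean`.
-/

namespace Vale.Agent.Lib.P052

theorem strictN_eq {α : Type} (x : ℕ) (f : ℕ → α) : strictN x f = f x := rfl

theorem natRec_const {α : Type} (a b : α) (x : ℕ) :
    Nat.rec (motive := fun _ => α) a (fun _ _ => b) x = if x = 0 then a else b := by
  cases x <;> rfl

theorem boolRec_and (c ih : Bool) :
    Bool.rec (motive := fun _ => Bool) false ih c = (c && ih) := by
  cases c <;> rfl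

theorem abit_eq (r k : ℕ) : abit r k = (r >>> k) % 2 := by
  unfold abit
  exact Nat.and_one_is_mod _

theorem abit_le (r k : ℕ) : abit r k ≤ 1 := by
  rw [abit_eq]; omega

theorem abit_cases (r k : ℕ) : abit r k = 0 ∨ abit r k = 1 := by
  have := abit_le r k; omega

theorem sel4_spec (f : ℕ → ℕ) (x : ℕ) (hx : x ≤ 3) :
    sel4 x (f 0) (f 1) (f 2) (f 3) = f x := by
  interval_cases x <;> rfl

theorem lab_le (i : ℕ) : lab i ≤ 3 := by
  unfold lab
  cases Nat.blt i 320 <;> cases Nat.blt i 352 <;> cases Nat.blt i 384 <;> simp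

theorem wt_le (a b : ℕ) : wt a b ≤ 3 := by
  unfold wt
  cases Nat.beq a 0 <;> cases Nat.beq b 0 <;> cases Nat.beq a b <;> simp

theorem spreadRow_spec (r : ℕ) (l : List (ℕ × ℕ)) :
    spreadRow r l = (l.map (fun q => abit r q.1 * bs ^ q.1)).sum := by
  induction l with
  | nil => rfl
  | cons q l ih =>
    have h : spreadRow r (q :: l) = Nat.rec (motive := fun _ => ℕ) (spreadRow r l)
        (fun _ _ => Nat.add (Nat.pow bs q.1) (spreadRow r l)) (abit r q.1) := rfl
    rw [h, natRec_const, List.map_cons, List.sum_cons, ← ih]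
    rcases abit_cases r q.1 with h0 | h1
    · simp [h0]
    · simp [h1]

theorem wpack_spec (a : ℕ) (l : List (ℕ × ℕ)) :
    wpack a l = (l.map (fun q => wt a (lab q.1) * bs ^ q.1)).sum := by
  induction l with
  | nil => rfl
  | cons q l ih =>
    have h : wpack a (q :: l) = Nat.add (Nat.mul (wt a (lab q.1)) (Nat.pow bs q.1)) (wpack a l) := rfl
    rw [h, List.map_cons, List.sum_cons, ← ih]
    rfl

theorem onesOf_spec (l : List (ℕ × ℕ)) :
    onesOf l = (l.map (fun q => bs ^ q.1)).sum := by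
  induction l with
  | nil => rfl
  | cons q l ih =>
    have h : onesOf (q :: l) = Nat.add (Nat.pow bs q.1) (onesOf l) := rfl
    rw [h, List.map_cons, List.sum_cons, ← ih]
    rfl

theorem colDot_spec (i : ℕ) (RL : List ((ℕ × ℕ) × ℕ)) :
    colDot i RL = (RL.map (fun t => abit t.1.2 i * t.2)).sum := by
  induction RL with
  | nil => rfl
  | cons t l ih =>
    have h : colDot i (t :: l) = Nat.rec (motive := fun _ => ℕ) (colDot i l)
        (fun _ _ => Nat.add t.2 (colDot i l)) (abit t.1.2 i) := rfl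
    rw [h, natRec_const, List.map_cons, List.sum_cons, ← ih]
    rcases abit_cases t.1.2 i with h0 | h1
    · simp [h0]
    · simp [h1]

theorem wdot_spec (b : ℕ) (RL : List ((ℕ × ℕ) × ℕ)) :
    wdot b RL = (RL.map (fun t => wt (lab t.1.1) b * t.2)).sum := by
  induction RL with
  | nil => rfl
  | cons t l ih =>
    have h : wdot b (t :: l) = Nat.add (Nat.mul (wt (lab t.1.1) b) t.2) (wdot b l) := rfl
    rw [h, List.map_cons, List.sum_cons, ← ih]
    rfl

theorem sumR_spec (RL : List ((ℕ × ℕ) × ℕ)) :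
    sumR RL = (RL.map (fun t => t.2)).sum := by
  induction RL with
  | nil => rfl
  | cons t l ih =>
    have h : sumR (t :: l) = Nat.add t.2 (sumR l) := rfl
    rw [h, List.map_cons, List.sum_cons, ← ih]
    rfl

/-- the packed row attached to the vertex datum `q` -/
noncomputable def rowVal (l0 : List (ℕ × ℕ)) (q : ℕ × ℕ) : ℕ :=
  4 * spreadRow q.2 l0 + 16 * bs ^ q.1 + wpack (lab q.1) l0

theorem mkRL_spec (l0 : List (ℕ × ℕ)) (k : List ((ℕ × ℕ) × ℕ) → Bool) (l : List (ℕ × ℕ))
    (acc : List ((ℕ × ℕ) × ℕ)) :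
    mkRL l0 (wpack 0 l0) (wpack 1 l0) (wpack 2 l0) (wpack 3 l0) k l acc
      = k ((l.map (fun q => (q, rowVal l0 q))).reverse ++ acc) := by
  induction l generalizing acc with
  | nil => rfl
  | cons q l ih =>
    have h : mkRL l0 (wpack 0 l0) (wpack 1 l0) (wpack 2 l0) (wpack 3 l0) k (q :: l) acc
        = strictN (Nat.add (Nat.add (Nat.mul 4 (spreadRow q.2 l0)) (Nat.mul 16 (Nat.pow bs q.1)))
            (sel4 (lab q.1) (wpack 0 l0) (wpack 1 l0) (wpack 2 l0) (wpack 3 l0)))
          (fun R => mkRL l0 (wpack 0 l0) (wpack 1 l0) (wpack 2 l0) (wpack 3 l0) k l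
            ((q, R) :: acc)) := rfl
    rw [h, strictN_eq, ih, sel4_spec (fun a => wpack a l0) _ (lab_le _)]
    simp [rowVal]

theorem checkRows_spec (c v0 v1 v2 v3 : ℕ) (RL RL' : List ((ℕ × ℕ) × ℕ)) :
    checkRows c v0 v1 v2 v3 RL RL' = true ↔
      ∀ t ∈ RL', 4 * colDot t.1.1 RL + 16 * t.2 + sel4 (lab t.1.1) v0 v1 v2 v3 = 96 * t.2 + c := by
  induction RL' with
  | nil => simp [checkRows]
  | cons t l ih =>
    have h : checkRows c v0 v1 v2 v3 RL (t :: l) = Bool.rec (motive := fun _ => Bool) false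
        (checkRows c v0 v1 v2 v3 RL l)
        (Nat.beq (Nat.add (Nat.add (Nat.mul 4 (colDot t.1.1 RL)) (Nat.mul 16 t.2))
          (sel4 (lab t.1.1) v0 v1 v2 v3)) (Nat.add (Nat.mul 96 t.2) c)) := rfl
    rw [h, boolRec_and, Bool.and_eq_true, ih, List.forall_mem_cons, Nat.beq_eq]
    rfl

theorem checkGram_spec (l : List (ℕ × ℕ)) (h : checkGram l = true) :
    (l.map (fun q => rowVal l q)).sum = 1248 * onesOf l ∧
    ∀ q ∈ l, 4 * (l.map (fun s => abit s.2 q.1 * rowVal l s)).sum + 16 * rowVal l q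
        + (l.map (fun s => wt (lab s.1) (lab q.1) * rowVal l s)).sum
      = 96 * rowVal l q + 3456 * onesOf l := by
  unfold checkGram at h
  simp only [strictN_eq] at h
  rw [mkRL_spec, boolRec_and, Bool.and_eq_true, checkRows_spec, Nat.beq_eq] at h
  obtain ⟨h1, h2⟩ := h
  constructor
  · have : sumR ((l.map (fun q => (q, rowVal l q))).reverse ++ []) = 1248 * onesOf l := h1
    rw [sumR_spec] at this
    simpa [List.sum_reverse, List.map_reverse, Function.comp_def] using this
  · intro q hq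
    have := h2 (q, rowVal l q) (by simp; exact ⟨q.1, q.2, hq, rfl, rfl⟩)
    rw [sel4_spec (fun b => wdot b _) _ (lab_le _), colDot_spec, wdot_spec] at this
    simpa [List.sum_reverse, List.map_reverse, Function.comp_def] using this

theorem diagOK_spec (l : List (ℕ × ℕ)) : diagOK l = true ↔ ∀ q ∈ l, abit q.2 q.1 = 0 := by
  induction l with
  | nil => simp [diagOK]
  | cons q l ih =>
    have h : diagOK (q :: l) = Bool.rec (motive := fun _ => Bool) false (diagOK l)
        (Nat.beq (abit q.2 q.1) 0) := rfl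
    rw [h, boolRec_and, Bool.and_eq_true, ih, List.forall_mem_cons, Nat.beq_eq]

end Vale.Agent.Lib.P052
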