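import Mathlib
import Vale.Agent.Lib.P052.Spec

/-!
Soundness of the clique search of `Defs.lean`.
-/

namespace Vale.Agent.Lib.P052

theorem filt_mem (r : ℕ) (l acc : List (ℕ × ℕ)) (p : ℕ × ℕ) :
    p ∈ filt r l acc ↔ (p ∈ l ∧ abit r p.1 = 1) ∨ p ∈ acc := by
  induction l generalizing acc with
  | nil => simp [filt]
  | cons q l ih =>
    have h : filt r (q :: l) acc = Nat.rec (motive := fun _ => List (ℕ × ℕ)) (filt r l acc)
        (fun _ _ => filt r l (q :: acc)) (abit r q.1) := rfl
    rw [h, natRec_const]
    rcases abit_cases r q.1 with h0 | h1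
    · rw [if_pos h0, ih]
      constructor
      · rintro (⟨h1, h2⟩ | h)
        · exact Or.inl ⟨List.mem_cons_of_mem _ h1, h2⟩
        · exact Or.inr h
      · rintro (⟨h1, h2⟩ | h)
        · rcases List.mem_cons.1 h1 with rfl | h1
          · omega
          · exact Or.inl ⟨h1, h2⟩
        · exact Or.inr h
    · rw [if_neg (by omega), ih]
      constructor
      · rintro (⟨h1, h2⟩ | h)
        · exact Or.inl ⟨List.mem_cons_of_mem _ h1, h2⟩
        · rcases List.mem_cons.1 h with rfl | h
          · exact Or.inl ⟨List.mem_cons_self, h1⟩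
          · exact Or.inr h
      · rintro (⟨h1, h2⟩ | h)
        · rcases List.mem_cons.1 h1 with rfl | h1
          · exact Or.inr List.mem_cons_self
          · exact Or.inl ⟨h1, h2⟩
        · exact Or.inr (List.mem_cons_of_mem _ h)

theorem allTails_cons (f : ℕ × ℕ → List (ℕ × ℕ) → Bool) (v : ℕ × ℕ) (cs : List (ℕ × ℕ)) :
    allTails f (v :: cs) = (f v cs && allTails f cs) := by
  have h : allTails f (v :: cs) = Bool.rec (motive := fun _ => Bool) false (allTails f cs)
      (f v cs) := rfl
  rw [h, boolRec_and]

theorem allTails_of_N (f : ℕ × ℕ → List (ℕ × ℕ) → Bool) (m : ℕ) :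
    ∀ l, allTailsN f m l = true → allTails f (l.drop m) = true → allTails f l = true := by
  induction m with
  | zero => intro l _ h; simpa using h
  | succ m ih =>
    intro l h1 h2
    cases l with
    | nil => rfl
    | cons v cs =>
      have h : allTailsN f (m + 1) (v :: cs) = Bool.rec (motive := fun _ => Bool) false
          (allTailsN f m cs) (f v cs) := rfl
      rw [h, boolRec_and, Bool.and_eq_true] at h1
      rw [allTails_cons, Bool.and_eq_true]
      exact ⟨h1.1, ih cs h1.2 (by simpa using h2)⟩

theorem noClq_succ (r : ℕ) (l : List (ℕ × ℕ)) :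
    noClq (r + 1) l = allTails (fun v cs => noClq r (filt v.2 cs [])) l := rfl

theorem noClq_sound (r : ℕ) : ∀ l : List (ℕ × ℕ), noClq r l = true →
    ∀ Q : Finset (ℕ × ℕ), (∀ p ∈ Q, p ∈ l) →
      (∀ p ∈ Q, ∀ q ∈ Q, p ≠ q → abit p.2 q.1 = 1) → Q.card < r := by
  induction r with
  | zero => intro l h; exact absurd h (by simp [noClq])
  | succ r ihr =>
    intro l
    rw [noClq_succ]
    induction l with
    | nil =>
      intro _ Q hQ _
      have : Q = ∅ := by
        apply Finset.eq_empty_of_forall_notMem
        intro p hp
        simpa using hQ p hp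
      simp [this]
    | cons v cs ihl =>
      intro h Q hQ hadj
      rw [allTails_cons, Bool.and_eq_true] at h
      by_cases hv : v ∈ Q
      · have h1 := ihr _ h.1 (Q.erase v) (by
          intro p hp
          rw [filt_mem]
          left
          have hpQ := Finset.mem_of_mem_erase hp
          have hne := Finset.ne_of_mem_erase hp
          refine ⟨?_, hadj v hv p hpQ (Ne.symm hne)⟩
          rcases List.mem_cons.1 (hQ p hpQ) with h' | h'
          · exact absurd h' hne
          · exact h') (by
          intro p hp q hq hpq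
          exact hadj p (Finset.mem_of_mem_erase hp) q (Finset.mem_of_mem_erase hq) hpq)
        rw [Finset.card_erase_of_mem hv] at h1
        have : 0 < Q.card := Finset.card_pos.2 ⟨v, hv⟩
        omega
      · exact ihl h.2 Q (by
          intro p hp
          rcases List.mem_cons.1 (hQ p hp) with h' | h'
          · exact absurd (h' ▸ hp) hv
          · exact h') hadj

end Vale.Agent.Lib.P052
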