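import Mathlib

/-!
A real matrix `P` with `Pᵀ P = P` and trace `r` is the Gram matrix of vectors of `ℝ^r`.
-/

namespace Vale.Agent.Lib.P052

open Matrix

theorem exists_vectors_of_proj {n r : ℕ} (P : Matrix (Fin n) (Fin n) ℝ)
    (h : Pᵀ * P = P) (htr : P.trace = r) :
    ∃ u : Fin n → EuclideanSpace ℝ (Fin r), ∀ i j, inner ℝ (u i) (u j) = P i j := by
  have hsymm : Pᵀ = P := by
    have := congrArg Matrix.transpose h
    rw [Matrix.transpose_mul, Matrix.transpose_transpose, h] at this
    exact this.symm
  have hidem : P * P = P := by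
    conv_lhs => rw [← hsymm]
    rw [hsymm] at h ⊢
    exact h
  set f : EuclideanSpace ℝ (Fin n) →ₗ[ℝ] EuclideanSpace ℝ (Fin n) := Matrix.toEuclideanLin P with hf
  have hff : ∀ y, f (f y) = f y := by
    intro y
    simp only [hf, Matrix.toEuclideanLin_apply, Matrix.mulVec_mulVec, hidem]
  set W := LinearMap.range f with hW
  have hproj : LinearMap.IsProj W f :=
    ⟨fun x => LinearMap.mem_range_self f x, fun x hx => by
      obtain ⟨y, rfl⟩ := hx
      exact hff y⟩
  have htrace : LinearMap.trace ℝ _ f = P.trace := by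
    rw [hf, Matrix.toEuclideanLin_eq_toLin_orthonormal, Matrix.trace_toLin_eq]
  have hrank : Module.finrank ℝ W = r := by
    have := hproj.trace
    rw [htrace, htr] at this
    exact_mod_cast this.symm
  let b := (stdOrthonormalBasis ℝ W).reindex (finCongr hrank)
  refine ⟨fun i => b.repr ⟨f (EuclideanSpace.single i 1), LinearMap.mem_range_self f _⟩, ?_⟩
  intro i j
  rw [LinearIsometryEquiv.inner_map_map, Submodule.coe_inner]
  simp only [hf, Matrix.toEuclideanLin_apply]
  have : P i j = (Pᵀ * P) i j := by rw [h]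
  rw [this, Matrix.mul_apply]
  simp [EuclideanSpace.inner_eq_star_dotProduct, dotProduct, Matrix.mulVec, Matrix.transpose_apply,
    mul_comm]

end Vale.Agent.Lib.P052
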