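import Mathlib
import Vale.Agent.Lib.P052.Spec

/-!
From the packed check to the entrywise identities.
-/

namespace Vale.Agent.Lib.P052

open Finset

theorem sum_map_range (n : ℕ) (g : ℕ → ℕ) :
    ((List.range n).map g).sum = ∑ i ∈ range n, g i := by
  induction n with
  | zero => simp
  | succ n ih => simp [List.range_succ, Finset.sum_range_succ, ih]

/-- uniqueness of digits -/
theorem pack_inj (b : ℕ) (n : ℕ) : ∀ (c d : ℕ → ℕ), (∀ j < n, c j < b) → (∀ j < n, d j < b) →
    (∑ j ∈ range n, c j * b ^ j = ∑ j ∈ range n, d j * b ^ j) → ∀ j < n, c j = d j := by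
  induction n with
  | zero => intro c d _ _ _ j hj; omega
  | succ n ih =>
    intro c d hc hd h j hj
    have hb : 0 < b := lt_of_le_of_lt (Nat.zero_le _) (hc 0 (Nat.succ_pos n))
    rw [Finset.sum_range_succ', Finset.sum_range_succ'] at h
    have e1 : ∀ f : ℕ → ℕ, ∑ k ∈ range n, f (k + 1) * b ^ (k + 1)
        = b * ∑ k ∈ range n, f (k + 1) * b ^ k := by
      intro f
      rw [Finset.mul_sum]
      apply Finset.sum_congr rfl
      intro k _
      ring
    rw [e1 c, e1 d] at h
    simp only [pow_zero, mul_one] at h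
    have h0 : c 0 = d 0 := by
      have := congrArg (· % b) h
      simp only [Nat.mul_add_mod] at this
      rwa [Nat.mod_eq_of_lt (hc 0 (Nat.succ_pos n)), Nat.mod_eq_of_lt (hd 0 (Nat.succ_pos n))] at this
    have h1 : ∑ k ∈ range n, c (k + 1) * b ^ k = ∑ k ∈ range n, d (k + 1) * b ^ k := by
      rw [h0] at h
      exact Nat.eq_of_mul_eq_mul_left hb (Nat.add_right_cancel h)
    cases j with
    | zero => exact h0
    | succ j =>
      exact ih (fun k => c (k + 1)) (fun k => d (k + 1)) (fun k hk => hc _ (by omega))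
        (fun k hk => hd _ (by omega)) h1 j (by omega)

section general

variable (n : ℕ) (a : ℕ → ℕ)

/-- vertex list built from a row function -/
def vl : List (ℕ × ℕ) := (List.range n).map (fun i => (i, a i))

/-- the entries of `K + 3 J` -/
noncomputable def KpG (i k : ℕ) : ℕ :=
  4 * abit (a i) k + (if i = k then 16 else 0) + wt (lab i) (lab k)

noncomputable def RnG (i : ℕ) : ℕ := ∑ j ∈ range n, KpG a i j * bs ^ j

theorem sum_vl (F : ℕ × ℕ → ℕ) : ((vl n a).map F).sum = ∑ k ∈ range n, F (k, a k) := by
  unfold vl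
  simp only [List.map_map, Function.comp_def]
  rw [sum_map_range]

theorem KpG_le (i k : ℕ) : KpG a i k ≤ 23 := by
  unfold KpG
  have h1 := abit_le (a i) k
  have h2 := wt_le (lab i) (lab k)
  split_ifs <;> omega

theorem rowVal_vl (i : ℕ) (hi : i < n) : rowVal (vl n a) (i, a i) = RnG n a i := by
  unfold rowVal RnG KpG
  rw [spreadRow_spec, wpack_spec]
  unfold vl
  simp only [List.map_map, Function.comp_def]
  rw [sum_map_range, sum_map_range]
  have : ∑ j ∈ range n, (if i = j then 16 else 0) * bs ^ j = 16 * bs ^ i := by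
    simp only [ite_mul, zero_mul]
    rw [Finset.sum_ite_eq]
    simp [hi]
  rw [← this, Finset.mul_sum, ← Finset.sum_add_distrib, ← Finset.sum_add_distrib]
  apply Finset.sum_congr rfl
  intro j _
  ring

theorem gram_packed (h : checkGram (vl n a) = true) :
    (∑ k ∈ range n, RnG n a k = 1248 * ∑ j ∈ range n, bs ^ j) ∧
    ∀ i < n, ∑ k ∈ range n, KpG a k i * RnG n a k
      = 96 * RnG n a i + 3456 * ∑ j ∈ range n, bs ^ j := by
  obtain ⟨h1, h2⟩ := checkGram_spec _ h
  have hones : onesOf (vl n a) = ∑ j ∈ range n, bs ^ j := by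
    rw [onesOf_spec]; unfold vl
    simp only [List.map_map, Function.comp_def]
    rw [sum_map_range]
  constructor
  · rw [hones] at h1
    rw [← h1, sum_vl]
    apply Finset.sum_congr rfl
    intro k hk
    rw [rowVal_vl n a k (Finset.mem_range.1 hk)]
  · intro i hi
    have := h2 (i, a i) (by unfold vl; simp; exact hi)
    rw [hones, rowVal_vl n a i hi] at this
    rw [← this]
    have e1 : ((vl n a).map (fun s => abit s.2 (i, a i).1 * rowVal (vl n a) s)).sum
        = ∑ k ∈ range n, abit (a k) i * RnG n a k := by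
      rw [sum_vl]
      apply Finset.sum_congr rfl
      intro k hk
      rw [rowVal_vl n a k (Finset.mem_range.1 hk)]
    have e2 : ((vl n a).map (fun s => wt (lab s.1) (lab (i, a i).1) * rowVal (vl n a) s)).sum
        = ∑ k ∈ range n, wt (lab k) (lab i) * RnG n a k := by
      rw [sum_vl]
      apply Finset.sum_congr rfl
      intro k hk
      rw [rowVal_vl n a k (Finset.mem_range.1 hk)]
    rw [e1, e2]
    have e3 : ∑ k ∈ range n, (if k = i then 16 else 0) * RnG n a k = 16 * RnG n a i := by
      simp only [ite_mul, zero_mul]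
      rw [Finset.sum_ite_eq']
      simp [hi]
    rw [← e3, Finset.mul_sum, ← Finset.sum_add_distrib, ← Finset.sum_add_distrib]
    apply Finset.sum_congr rfl
    intro k _
    unfold KpG
    ring

theorem gram_entries (hn : n ≤ 416) (h : checkGram (vl n a) = true) :
    (∀ j < n, ∑ k ∈ range n, KpG a k j = 1248) ∧
    ∀ i < n, ∀ j < n, ∑ k ∈ range n, KpG a k i * KpG a k j = 96 * KpG a i j + 3456 := by
  obtain ⟨h1, h2⟩ := gram_packed n a h
  have hbs : bs = 262144 := rfl
  constructor
  · have e : ∑ k ∈ range n, RnG n a k = ∑ j ∈ range n, (∑ k ∈ range n, KpG a k j) * bs ^ j := by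
      unfold RnG
      rw [Finset.sum_comm]
      apply Finset.sum_congr rfl
      intro j _
      rw [Finset.sum_mul]
    rw [e, Finset.mul_sum] at h1
    apply pack_inj bs n _ (fun _ => 1248) _ _ h1
    · intro j _
      calc ∑ k ∈ range n, KpG a k j ≤ ∑ k ∈ range n, 23 := Finset.sum_le_sum (fun k _ => KpG_le a k j)
        _ = n * 23 := by simp
        _ < bs := by rw [hbs]; omega
    · intro j _; rw [hbs]; omega
  · intro i hi
    have e : ∑ k ∈ range n, KpG a k i * RnG n a k
        = ∑ j ∈ range n, (∑ k ∈ range n, KpG a k i * KpG a k j) * bs ^ j := by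
      unfold RnG
      simp only [Finset.mul_sum]
      rw [Finset.sum_comm]
      apply Finset.sum_congr rfl
      intro j _
      rw [Finset.sum_mul]
      apply Finset.sum_congr rfl
      intro k _
      ring
    have e' : 96 * RnG n a i + 3456 * ∑ j ∈ range n, bs ^ j
        = ∑ j ∈ range n, (96 * KpG a i j + 3456) * bs ^ j := by
      unfold RnG
      rw [Finset.mul_sum, Finset.mul_sum, ← Finset.sum_add_distrib]
      apply Finset.sum_congr rfl
      intro j _
      ring
    have h3 := h2 i hi
    rw [e, e'] at h3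
    apply pack_inj bs n _ _ _ _ h3
    · intro j _
      calc ∑ k ∈ range n, KpG a k i * KpG a k j ≤ ∑ k ∈ range n, 23 * 23 :=
            Finset.sum_le_sum (fun k _ => Nat.mul_le_mul (KpG_le a k i) (KpG_le a k j))
        _ = n * (23 * 23) := by simp
        _ < bs := by rw [hbs]; omega
    · intro j _
      have := KpG_le a i j
      rw [hbs]; omega

end general

end Vale.Agent.Lib.P052
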