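import Mathlib
import Vale.Agent.Lib.P052.Pack
import Vale.Agent.Lib.P052.CliqueSpec
import Vale.Agent.Lib.P052.ChkGram
import Vale.Agent.Lib.P052.ChkClq0
import Vale.Agent.Lib.P052.ChkClq1
import Vale.Agent.Lib.P052.ChkClq2
import Vale.Agent.Lib.P052.ChkClq3
import Vale.Agent.Lib.P052.ChkClq4
import Vale.Agent.Lib.P052.ChkClq5
import Vale.Agent.Lib.P052.ChkClq6
import Vale.Agent.Lib.P052.ChkClq7
import Vale.Agent.Lib.P052.ChkClq8
import Vale.Agent.Lib.P052.ChkClq9

/-!
The facts about the concrete graph that the construction needs.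
-/

namespace Vale.Agent.Lib.P052

open Finset

/-- neighbour mask of vertex `i` -/
noncomputable def adjRow (i : ℕ) : ℕ := (graphData.getD i (0, 0)).2

theorem graphData_length : graphData.length = 416 := by
  have := congrArg List.length fst_ok
  simpa using this

theorem graphData_eq : graphData = vl 416 adjRow := by
  unfold vl
  apply List.ext_getElem
  · simp [graphData_length]
  · intro i h1 h2
    have hf : (graphData.map Prod.fst)[i]? = (List.range 416)[i]? := by rw [fst_ok]
    have hi : i < 416 := by simpa [graphData_length] using h1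
    rw [List.getElem?_map, List.getElem?_eq_getElem h1, List.getElem?_range hi] at hf
    simp only [Option.map_some, Option.some.injEq] at hf
    simp only [List.getElem_map, List.getElem_range]
    apply Prod.ext
    · exact hf
    · simp [adjRow, List.getElem?_eq_getElem h1]

theorem checkGram_vl : checkGram (vl 416 adjRow) = true := graphData_eq ▸ checkGram_ok

theorem colsum (j : ℕ) (hj : j < 416) : ∑ k ∈ range 416, KpG adjRow k j = 1248 :=
  (gram_entries 416 adjRow le_rfl checkGram_vl).1 j hj

theorem gram (i j : ℕ) (hi : i < 416) (hj : j < 416) :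
    ∑ k ∈ range 416, KpG adjRow k i * KpG adjRow k j = 96 * KpG adjRow i j + 3456 :=
  (gram_entries 416 adjRow le_rfl checkGram_vl).2 i hi j hj

theorem no_loop (i : ℕ) (hi : i < 416) : abit (adjRow i) i = 0 := by
  have h := (diagOK_spec graphData).1 diagOK_ok (i, adjRow i) (by
    rw [graphData_eq]; unfold vl; simp; exact hi)
  exact h

theorem g321_eq : g321 = (List.range 321).map (fun i => (i, adjRow i)) := by
  unfold g321
  rw [graphData_eq]
  unfold vl
  rw [← List.map_take, List.take_range]
  rfl

theorem noClq6 : noClq 6 g321 = true := by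
  have hlen : g321.length = 321 := by rw [g321_eq]; simp
  have h10 : allTails top5 (g321.drop 321) = true := by
    rw [List.drop_eq_nil_of_le (by rw [hlen])]; rfl
  have h9 := allTails_of_N top5 _ _ clq_chunk9 (by simpa [List.drop_drop] using h10)
  have h8 := allTails_of_N top5 _ _ clq_chunk8 (by simpa [List.drop_drop] using h9)
  have h7 := allTails_of_N top5 _ _ clq_chunk7 (by simpa [List.drop_drop] using h8)
  have h6 := allTails_of_N top5 _ _ clq_chunk6 (by simpa [List.drop_drop] using h7)
  have h5 := allTails_of_N top5 _ _ clq_chunk5 (by simpa [List.drop_drop] using h6)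
  have h4 := allTails_of_N top5 _ _ clq_chunk4 (by simpa [List.drop_drop] using h5)
  have h3 := allTails_of_N top5 _ _ clq_chunk3 (by simpa [List.drop_drop] using h4)
  have h2 := allTails_of_N top5 _ _ clq_chunk2 (by simpa [List.drop_drop] using h3)
  have h1 := allTails_of_N top5 _ _ clq_chunk1 (by simpa [List.drop_drop] using h2)
  have h0 := allTails_of_N top5 _ _ clq_chunk0 (by simpa [List.drop_drop] using h1)
  rw [noClq_succ]
  have h00 : allTails top5 g321 = true := by simpa using h0
  exact h00

theorem clique_bound (Q : Finset ℕ) (h1 : ∀ v ∈ Q, v < 321)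
    (h2 : ∀ a ∈ Q, ∀ b ∈ Q, a ≠ b → abit (adjRow a) b = 1) : Q.card ≤ 5 := by
  have hinj : Function.Injective (fun v : ℕ => (v, adjRow v)) := by
    intro a b hab
    exact (Prod.ext_iff.1 hab).1
  have := noClq_sound 6 g321 noClq6 (Q.map ⟨_, hinj⟩) (by
    intro p hp
    obtain ⟨v, hv, rfl⟩ := Finset.mem_map.1 hp
    rw [g321_eq]
    simp only [Function.Embedding.coeFn_mk, List.mem_map, List.mem_range]
    exact ⟨v, h1 v hv, rfl⟩) (by
    intro p hp q hq hpq
    obtain ⟨v, hv, rfl⟩ := Finset.mem_map.1 hp
    obtain ⟨w, hw, rfl⟩ := Finset.mem_map.1 hq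
    exact h2 v hv w hw (fun h => hpq (by rw [h])))
  rw [Finset.card_map] at this
  omega

set_option maxRecDepth 100000 in
theorem wt_diag_sum : ∑ i ∈ range 416, wt (lab i) (lab i) = 640 := by decide +kernel

end Vale.Agent.Lib.P052
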