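import Mathlib

open Finset

namespace Vale.Agent.Lib.P052

/-- Borsuk's conjecture in dimension `d`: every bounded set `Y ⊆ ℝ^d` of positive diameter is a
union of `d + 1` subsets, each of diameter strictly smaller than `diam Y`. -/
def BorsukConjecture (d : ℕ) : Prop :=
  ∀ Y : Set (EuclideanSpace ℝ (Fin d)), Bornology.IsBounded Y → 0 < Metric.diam Y →
    ∃ P : Fin (d + 1) → Set (EuclideanSpace ℝ (Fin d)),
      Y = ⋃ i, P i ∧ ∀ i, Metric.diam (P i) < Metric.diam Y

/-- A finite point set in `ℝ^d` of diameter `D` in which every subset with all distances `< D` has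
at most `m` points, and which has more than `m (d+1)` points, refutes Borsuk's conjecture. -/
theorem not_borsuk_of_finset {d m : ℕ} (S : Finset (EuclideanSpace ℝ (Fin d))) (D : ℝ)
    (hD : 0 < D) (hle : ∀ x ∈ S, ∀ y ∈ S, dist x y ≤ D) (hatt : ∃ x ∈ S, ∃ y ∈ S, dist x y = D)
    (hclique : ∀ T : Finset (EuclideanSpace ℝ (Fin d)), T ⊆ S →
      (∀ x ∈ T, ∀ y ∈ T, dist x y < D) → T.card ≤ m)
    (hcard : m * (d + 1) < S.card) : ¬ BorsukConjecture d := by
  classical
  intro hB
  have hbdd : Bornology.IsBounded (S : Set (EuclideanSpace ℝ (Fin d))) := S.finite_toSet.isBounded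
  have hdiam : Metric.diam (S : Set (EuclideanSpace ℝ (Fin d))) = D := by
    apply le_antisymm
    · exact Metric.diam_le_of_forall_dist_le hD.le (fun x hx y hy => hle x hx y hy)
    · obtain ⟨x, hx, y, hy, hxy⟩ := hatt
      rw [← hxy]
      exact Metric.dist_le_diam_of_mem hbdd hx hy
  obtain ⟨P, hP, hPd⟩ := hB S hbdd (by rw [hdiam]; exact hD)
  rw [hdiam] at hPd
  have hsub : ∀ i, P i ⊆ (S : Set (EuclideanSpace ℝ (Fin d))) := by
    intro i
    rw [hP]
    exact Set.subset_iUnion P i
  have hT : ∀ i, (S.filter (fun x => x ∈ P i)).card ≤ m := by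
    intro i
    apply hclique _ (Finset.filter_subset _ _)
    intro x hx y hy
    rw [Finset.mem_filter] at hx hy
    exact lt_of_le_of_lt (Metric.dist_le_diam_of_mem (hbdd.subset (hsub i)) hx.2 hy.2) (hPd i)
  have hcover : S ⊆ (Finset.univ : Finset (Fin (d + 1))).biUnion
      (fun i => S.filter (fun x => x ∈ P i)) := by
    intro x hx
    have hx' : x ∈ (S : Set (EuclideanSpace ℝ (Fin d))) := hx
    rw [hP, Set.mem_iUnion] at hx'
    obtain ⟨i, hi⟩ := hx'
    rw [Finset.mem_biUnion]
    exact ⟨i, Finset.mem_univ _, Finset.mem_filter.mpr ⟨hx, hi⟩⟩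
  have h1 : S.card ≤ ∑ i : Fin (d + 1), (S.filter (fun x => x ∈ P i)).card :=
    (Finset.card_le_card hcover).trans Finset.card_biUnion_le
  have h2 : ∑ i : Fin (d + 1), (S.filter (fun x => x ∈ P i)).card ≤ ∑ _i : Fin (d + 1), m :=
    Finset.sum_le_sum (fun i _ => hT i)
  simp only [Finset.sum_const, Finset.card_univ, Fintype.card_fin, smul_eq_mul] at h2
  have : S.card ≤ m * (d + 1) := by
    rw [mul_comm]; exact h1.trans h2
  omega

/-- A finite-dimensional real inner product space of dimension at most `d` embeds isometrically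
and linearly into `ℝ^d`. -/
theorem exists_linearIsometry_of_finrank_le {W : Type*} [NormedAddCommGroup W]
    [InnerProductSpace ℝ W] [FiniteDimensional ℝ W] {d : ℕ} (h : Module.finrank ℝ W ≤ d) :
    Nonempty (W →ₗᵢ[ℝ] EuclideanSpace ℝ (Fin d)) := by
  classical
  let b := stdOrthonormalBasis ℝ W
  let e := EuclideanSpace.basisFun (Fin d) ℝ
  let f : W →ₗ[ℝ] EuclideanSpace ℝ (Fin d) :=
    b.toBasis.constr ℝ (fun i => e (Fin.castLE h i))
  refine ⟨f.isometryOfOrthonormal (v := b.toBasis) (by simp) ?_⟩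
  have : (f ∘ b.toBasis) = fun i => e (Fin.castLE h i) := by
    ext1 i
    simp [f]
  rw [this]
  exact e.orthonormal.comp _ (Fin.castLE_injective h)

/-- Points of an inner product space lying in a translate of a subspace of dimension at most `d`
can be copied isometrically into `ℝ^d`. -/
theorem exists_isometric_copy {E : Type*} [NormedAddCommGroup E] [InnerProductSpace ℝ E]
    {ι : Type*} (x : ι → E) (W : Submodule ℝ E) [FiniteDimensional ℝ W] {d : ℕ}
    (hW : Module.finrank ℝ W ≤ d) (x0 : E) (h : ∀ i, x i - x0 ∈ W) :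
    ∃ y : ι → EuclideanSpace ℝ (Fin d), ∀ i j, dist (y i) (y j) = dist (x i) (x j) := by
  obtain ⟨φ⟩ := exists_linearIsometry_of_finrank_le hW
  refine ⟨fun i => φ ⟨x i - x0, h i⟩, fun i j => ?_⟩
  rw [φ.dist_map, Subtype.dist_eq]
  simp

/-- Indexed version of the counting argument, with no injectivity assumption: a family of points
`y i` of `ℝ^d` such that non-adjacent distinct indices are at distance exactly `D`, adjacent ones
at distance `< D`, every clique of `adj` has at most `m` indices, and there are more than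
`m (d+1)` indices, refutes Borsuk's conjecture in dimension `d`. -/
theorem not_borsuk_of_family {ι : Type*} [Fintype ι] {d m : ℕ}
    (y : ι → EuclideanSpace ℝ (Fin d)) (adj : ι → ι → Prop) (D : ℝ) (hD : 0 < D)
    (hfar : ∀ i j, i ≠ j → ¬ adj i j → dist (y i) (y j) = D)
    (hnear : ∀ i j, i ≠ j → adj i j → dist (y i) (y j) < D)
    (hex : ∃ i j, i ≠ j ∧ ¬ adj i j)
    (hclique : ∀ T : Finset ι, (∀ i ∈ T, ∀ j ∈ T, i ≠ j → adj i j) → T.card ≤ m)
    (hcard : m * (d + 1) < Fintype.card ι) : ¬ BorsukConjecture d := by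
  classical
  intro hB
  set Y : Set (EuclideanSpace ℝ (Fin d)) := Set.range y with hY
  have hbdd : Bornology.IsBounded Y := (Set.finite_range y).isBounded
  have hle : ∀ i j, dist (y i) (y j) ≤ D := by
    intro i j
    by_cases hij : i = j
    · subst hij; simpa using hD.le
    · by_cases ha : adj i j
      · exact (hnear i j hij ha).le
      · exact (hfar i j hij ha).le
  have hdiam : Metric.diam Y = D := by
    apply le_antisymm
    · apply Metric.diam_le_of_forall_dist_le hD.le
      rintro _ ⟨i, rfl⟩ _ ⟨j, rfl⟩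
      exact hle i j
    · obtain ⟨i, j, hij, ha⟩ := hex
      rw [← hfar i j hij ha]
      exact Metric.dist_le_diam_of_mem hbdd ⟨i, rfl⟩ ⟨j, rfl⟩
  obtain ⟨P, hP, hPd⟩ := hB Y hbdd (by rw [hdiam]; exact hD)
  rw [hdiam] at hPd
  have hsub : ∀ k, P k ⊆ Y := by
    intro k
    rw [hP]
    exact Set.subset_iUnion P k
  have hmem : ∀ i, ∃ k, y i ∈ P k := by
    intro i
    have : y i ∈ Y := ⟨i, rfl⟩
    rw [hP, Set.mem_iUnion] at this
    exact this
  choose c hc using hmem
  have hT : ∀ k, ((Finset.univ : Finset ι).filter (fun i => c i = k)).card ≤ m := by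
    intro k
    apply hclique
    intro i hi j hj hij
    rw [Finset.mem_filter] at hi hj
    by_contra ha
    have h1 : dist (y i) (y j) ≤ Metric.diam (P k) :=
      Metric.dist_le_diam_of_mem (hbdd.subset (hsub k)) (hi.2 ▸ hc i) (hj.2 ▸ hc j)
    rw [hfar i j hij ha] at h1
    exact absurd (hPd k) (not_lt.mpr h1)
  have h1 : Fintype.card ι = ∑ k : Fin (d + 1),
      ((Finset.univ : Finset ι).filter (fun i => c i = k)).card := by
    rw [← Finset.card_univ]
    exact Finset.card_eq_sum_card_fiberwise (fun i _ => Finset.mem_univ (c i))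
  have h2 : ∑ k : Fin (d + 1), ((Finset.univ : Finset ι).filter (fun i => c i = k)).card ≤
      ∑ _k : Fin (d + 1), m := Finset.sum_le_sum (fun k _ => hT k)
  simp only [Finset.sum_const, Finset.card_univ, Fintype.card_fin, smul_eq_mul] at h2
  have : Fintype.card ι ≤ m * (d + 1) := by
    rw [mul_comm, h1]; exact h2
  omega

/-- The same for a family of points of an arbitrary real inner product space lying in a subspace
`W` of dimension at most `d`. -/
theorem not_borsuk_of_config {E : Type*} [NormedAddCommGroup E] [InnerProductSpace ℝ E]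
    {ι : Type*} [Fintype ι] {d m : ℕ} (x : ι → E) (W : Submodule ℝ E) [FiniteDimensional ℝ W]
    (hW : Module.finrank ℝ W ≤ d) (hx : ∀ i, x i ∈ W)
    (adj : ι → ι → Prop) (D : ℝ) (hD : 0 < D)
    (hfar : ∀ i j, i ≠ j → ¬ adj i j → dist (x i) (x j) = D)
    (hnear : ∀ i j, i ≠ j → adj i j → dist (x i) (x j) < D)
    (hex : ∃ i j, i ≠ j ∧ ¬ adj i j)
    (hclique : ∀ T : Finset ι, (∀ i ∈ T, ∀ j ∈ T, i ≠ j → adj i j) → T.card ≤ m)
    (hcard : m * (d + 1) < Fintype.card ι) : ¬ BorsukConjecture d := by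
  obtain ⟨y, hy⟩ := exists_isometric_copy x W hW 0 (by simpa using hx)
  exact not_borsuk_of_family y adj D hD
    (fun i j hij ha => by rw [hy]; exact hfar i j hij ha)
    (fun i j hij ha => by rw [hy]; exact hnear i j hij ha) hex hclique hcard

/-- Version in terms of squared distances / inner products: `‖x i - x j‖² = D2` for far pairs and
`< D2` for near pairs. -/
theorem not_borsuk_of_config_sq {E : Type*} [NormedAddCommGroup E] [InnerProductSpace ℝ E]
    {ι : Type*} [Fintype ι] {d m : ℕ} (x : ι → E) (W : Submodule ℝ E) [FiniteDimensional ℝ W]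
    (hW : Module.finrank ℝ W ≤ d) (hx : ∀ i, x i ∈ W)
    (adj : ι → ι → Prop) (D2 : ℝ) (hD : 0 < D2)
    (hfar : ∀ i j, i ≠ j → ¬ adj i j → ‖x i - x j‖ ^ 2 = D2)
    (hnear : ∀ i j, i ≠ j → adj i j → ‖x i - x j‖ ^ 2 < D2)
    (hex : ∃ i j, i ≠ j ∧ ¬ adj i j)
    (hclique : ∀ T : Finset ι, (∀ i ∈ T, ∀ j ∈ T, i ≠ j → adj i j) → T.card ≤ m)
    (hcard : m * (d + 1) < Fintype.card ι) : ¬ BorsukConjecture d := by
  refine not_borsuk_of_config x W hW hx adj (Real.sqrt D2) (Real.sqrt_pos.mpr hD) ?_ ?_ hex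
    hclique hcard
  · intro i j hij ha
    rw [dist_eq_norm, ← hfar i j hij ha, Real.sqrt_sq (norm_nonneg _)]
  · intro i j hij ha
    rw [dist_eq_norm]
    apply Real.lt_sqrt_of_sq_lt
    exact hnear i j hij ha

end Vale.Agent.Lib.P052
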