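import Mathlib

/-!
A finite point configuration whose `closeness graph` has small cliques cannot be cut into few
pieces of smaller diameter.
-/

namespace Vale.Agent.Lib.P052

theorem no_partition {E : Type*} [MetricSpace E] {N m c : ℕ} (pts : Fin N → E)
    (adj : Fin N → Fin N → Prop) (D : ℝ) (hD : 0 < D)
    (hfar : ∀ i j, i ≠ j → ¬ adj i j → dist (pts i) (pts j) = D)
    (hle : ∀ i j, dist (pts i) (pts j) ≤ D)
    (hex : ∃ i j, i ≠ j ∧ ¬ adj i j)
    (hclq : ∀ Q : Finset (Fin N), (∀ a ∈ Q, ∀ b ∈ Q, a ≠ b → adj a b) → Q.card ≤ c)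
    (hN : m * c < N) :
    Metric.diam (Set.range pts) = D ∧
    ¬ ∃ P : Fin m → Set E, (⋃ k, P k) = Set.range pts ∧
        ∀ k, Metric.diam (P k) < Metric.diam (Set.range pts) := by
  have hb : Bornology.IsBounded (Set.range pts) := (Set.finite_range pts).isBounded
  have hdiam : Metric.diam (Set.range pts) = D := by
    apply le_antisymm
    · apply Metric.diam_le_of_forall_dist_le hD.le
      rintro _ ⟨i, rfl⟩ _ ⟨j, rfl⟩
      exact hle i j
    · obtain ⟨i, j, hij, hn⟩ := hex
      rw [← hfar i j hij hn]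
      exact Metric.dist_le_diam_of_mem hb ⟨i, rfl⟩ ⟨j, rfl⟩
  refine ⟨hdiam, ?_⟩
  rintro ⟨P, hU, hd⟩
  have hmem : ∀ i, ∃ k, pts i ∈ P k := by
    intro i
    have : pts i ∈ ⋃ k, P k := by rw [hU]; exact ⟨i, rfl⟩
    simpa using this
  choose col hcol using hmem
  have hsub : ∀ k, P k ⊆ Set.range pts := by
    intro k
    rw [← hU]
    exact Set.subset_iUnion P k
  have hcard : ∀ k, (Finset.univ.filter (fun i => col i = k)).card ≤ c := by
    intro k
    apply hclq
    intro a ha b hb' hab
    by_contra hn
    have h1 := hfar a b hab hn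
    have ha' : col a = k := by simpa using ha
    have hb'' : col b = k := by simpa using hb'
    have h2 : dist (pts a) (pts b) ≤ Metric.diam (P k) :=
      Metric.dist_le_diam_of_mem (hb.subset (hsub k)) (ha' ▸ hcol a) (hb'' ▸ hcol b)
    have h3 := hd k
    rw [hdiam] at h3
    linarith
  have hsum : N = ∑ k : Fin m, (Finset.univ.filter (fun i => col i = k)).card := by
    have := Finset.card_eq_sum_card_fiberwise (f := col) (s := (Finset.univ : Finset (Fin N)))
      (t := (Finset.univ : Finset (Fin m))) (fun _ _ => Finset.mem_coe.2 (Finset.mem_univ _))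
    simpa using this
  have : N ≤ m * c := by
    calc N = ∑ k : Fin m, (Finset.univ.filter (fun i => col i = k)).card := hsum
      _ ≤ ∑ _k : Fin m, c := Finset.sum_le_sum (fun k _ => hcard k)
      _ = m * c := by simp
  omega

end Vale.Agent.Lib.P052
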