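import Mathlib
import Vale.Agent.Lib.P052.Facts
import Vale.Agent.Lib.P052.Embed
import Vale.Agent.Lib.P052.Geom

/-!
Assembly: 321 points of `ℝ^63` that cannot be cut into 64 pieces of smaller diameter.
-/

namespace Vale.Agent.Lib.P052

open Finset

/-- the orthogonal projection of `ℝ^416` onto the 63-dimensional space -/
noncomputable def Pm : Matrix (Fin 416) (Fin 416) ℝ :=
  fun i j => ((KpG adjRow i j : ℝ) - 3) / 96

theorem Pm_gram : Pm.transpose * Pm = Pm := by
  ext i j
  rw [Matrix.mul_apply]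
  simp only [Matrix.transpose_apply, Pm]
  have h1 : (∑ k : Fin 416, (KpG adjRow k i : ℝ) * (KpG adjRow k j : ℝ))
      = 96 * (KpG adjRow i j : ℝ) + 3456 := by
    have := gram i j i.2 j.2
    rw [← Fin.sum_univ_eq_sum_range (fun k => KpG adjRow k i * KpG adjRow k j)] at this
    exact_mod_cast this
  have h2 : ∀ j : Fin 416, (∑ k : Fin 416, (KpG adjRow k j : ℝ)) = 1248 := by
    intro j
    have := colsum j j.2
    rw [← Fin.sum_univ_eq_sum_range (fun k => KpG adjRow k j)] at this
    exact_mod_cast this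
  have h3 : ∀ k : Fin 416, ((KpG adjRow k i : ℝ) - 3) / 96 * (((KpG adjRow k j : ℝ) - 3) / 96)
      = ((KpG adjRow k i : ℝ) * (KpG adjRow k j : ℝ)) / 9216 - (3 / 9216) * (KpG adjRow k i : ℝ)
        - (3 / 9216) * (KpG adjRow k j : ℝ) + 9 / 9216 := by
    intro k; ring
  simp_rw [h3]
  rw [Finset.sum_add_distrib, Finset.sum_sub_distrib, Finset.sum_sub_distrib, ← Finset.sum_div,
    ← Finset.mul_sum, ← Finset.mul_sum, h1, h2 i, h2 j]
  simp
  ring

theorem KpG_diag (i : ℕ) (hi : i < 416) : KpG adjRow i i = 16 + wt (lab i) (lab i) := by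
  unfold KpG
  rw [no_loop i hi]
  simp

theorem Pm_trace : Pm.trace = (63 : ℕ) := by
  unfold Matrix.trace
  simp only [Matrix.diag_apply, Pm]
  have h1 : (∑ i : Fin 416, (KpG adjRow i i : ℝ)) = 7296 := by
    have h : ∑ i ∈ range 416, KpG adjRow i i = 7296 := by
      rw [Finset.sum_congr rfl (fun i hi => KpG_diag i (Finset.mem_range.1 hi)),
        Finset.sum_add_distrib, wt_diag_sum]
      simp
    rw [← Fin.sum_univ_eq_sum_range (fun k => KpG adjRow k k)] at h
    exact_mod_cast h
  rw [← Finset.sum_div, Finset.sum_sub_distrib, h1]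
  simp
  norm_num

theorem lab_lt {i : ℕ} (hi : i < 320) : lab i = 0 := by
  have : Nat.blt i 320 = true := by simpa [Nat.blt_eq] using hi
  simp [lab, this]

theorem lab_320 : lab 320 = 1 := rfl

/-- the scaling factor of the extra point -/
noncomputable def tz : ℝ := (Real.sqrt 222 - 1) / 13

theorem tz_pos : 0 < tz := by
  unfold tz
  have : (1 : ℝ) < Real.sqrt 222 := by
    rw [show (1 : ℝ) = Real.sqrt 1 by simp]
    exact Real.sqrt_lt_sqrt (by norm_num) (by norm_num)
  apply div_pos <;> linarith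

theorem tz_eq : 13 * tz ^ 2 + 2 * tz = 17 := by
  unfold tz
  have h : Real.sqrt 222 ^ 2 = 222 := Real.sq_sqrt (by norm_num)
  field_simp
  nlinarith [h]

/-- inclusion of the index set -/
def inc (i : Fin 321) : Fin 416 := ⟨i.1, by omega⟩

noncomputable def sc (i : Fin 321) : ℝ := if i.1 < 320 then 1 else tz

theorem sc_pos (i : Fin 321) : 0 < sc i := by
  unfold sc; split_ifs
  · exact one_pos
  · exact tz_pos

/-- adjacency number -/
noncomputable def av (i j : Fin 321) : ℕ := abit (adjRow i.1) j.1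

theorem Pm_off (i j : Fin 321) (hij : i ≠ j) :
    Pm (inc i) (inc j) = (4 * (av i j : ℝ) - 1) / 96 := by
  have hne : i.1 ≠ j.1 := fun h => hij (Fin.ext h)
  have hw : wt (lab i.1) (lab j.1) = 2 := by
    by_cases hi : i.1 < 320
    · rw [lab_lt hi]; rfl
    · have hj : j.1 < 320 := by omega
      rw [lab_lt hj]
      have : i.1 = 320 := by omega
      rw [this]; rfl
  have hk : KpG adjRow i.1 j.1 = 4 * abit (adjRow i.1) j.1 + 2 := by
    unfold KpG
    rw [if_neg hne, hw]
  show ((KpG adjRow i.1 j.1 : ℝ) - 3) / 96 = _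
  rw [hk]
  unfold av
  push_cast
  ring

theorem Pm_diag (i : Fin 321) :
    Pm (inc i) (inc i) = (if i.1 < 320 then 15 else 13) / 96 := by
  simp only [Pm, inc]
  rw [KpG_diag i.1 (by omega)]
  split_ifs with hi
  · rw [lab_lt hi]
    have : wt 0 0 = 2 := rfl
    rw [this]; norm_num
  · have : i.1 = 320 := by omega
    rw [this, lab_320]
    have : wt 1 1 = 0 := rfl
    rw [this]; norm_num

theorem scale_identity (i j : Fin 321) (hij : i ≠ j) :
    sc i ^ 2 * (if i.1 < 320 then 15 else 13) + sc j ^ 2 * (if j.1 < 320 then 15 else 13)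
      + 2 * (sc i * sc j) = (32 : ℝ) := by
  have hne : i.1 ≠ j.1 := fun h => hij (Fin.ext h)
  have ht := tz_eq
  unfold sc
  by_cases hi : i.1 < 320 <;> by_cases hj : j.1 < 320
  · simp only [hi, hj, if_true]; norm_num
  · simp only [hi, hj, if_true, if_false]; nlinarith
  · simp only [hi, hj, if_true, if_false]; nlinarith
  · omega

theorem borsuk63 :
    ∃ Y : Set (EuclideanSpace ℝ (Fin 63)), Y.Finite ∧ 0 < Metric.diam Y ∧
      ¬ ∃ P : Fin 64 → Set (EuclideanSpace ℝ (Fin 63)), (⋃ k, P k) = Y ∧
        ∀ k, Metric.diam (P k) < Metric.diam Y := by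
  obtain ⟨u, hu⟩ := exists_vectors_of_proj Pm Pm_gram Pm_trace
  let pts : Fin 321 → EuclideanSpace ℝ (Fin 63) := fun i => sc i • u (inc i)
  have hdist : ∀ i j, i ≠ j →
      dist (pts i) (pts j) ^ 2 = (32 - 8 * (sc i * sc j) * (av i j : ℝ)) / 96 := by
    intro i j hij
    have h1 : dist (pts i) (pts j) ^ 2 = sc i ^ 2 * Pm (inc i) (inc i)
        - 2 * (sc i * sc j) * Pm (inc i) (inc j) + sc j ^ 2 * Pm (inc j) (inc j) := by
      rw [dist_eq_norm, norm_sub_sq_real, ← real_inner_self_eq_norm_sq, ← real_inner_self_eq_norm_sq]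
      simp only [pts, inner_smul_left, inner_smul_right, hu]
      simp
      ring
    rw [h1, Pm_off i j hij, Pm_diag, Pm_diag]
    have := scale_identity i j hij
    linear_combination this / 96
  have hD : (0 : ℝ) < Real.sqrt (1 / 3) := Real.sqrt_pos.2 (by norm_num)
  have hav : ∀ i j, av i j = 0 ∨ av i j = 1 := fun i j => abit_cases _ _
  have hclq : ∀ Q : Finset (Fin 321), (∀ a ∈ Q, ∀ b ∈ Q, a ≠ b → av a b = 1) → Q.card ≤ 5 := by
    intro Q hQ
    have := clique_bound (Q.map Fin.valEmbedding) (by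
      intro v hv
      obtain ⟨a, _, rfl⟩ := Finset.mem_map.1 hv
      exact a.2) (by
      intro a ha b hb hab
      obtain ⟨a', ha', rfl⟩ := Finset.mem_map.1 ha
      obtain ⟨b', hb', rfl⟩ := Finset.mem_map.1 hb
      exact hQ a' ha' b' hb' (fun h => hab (by rw [h])))
    rwa [Finset.card_map] at this
  have key := no_partition (m := 64) (c := 5) pts (fun i j => av i j = 1) (Real.sqrt (1 / 3)) hD
    (by
      intro i j hij hn
      have h0 : av i j = 0 := by
        rcases hav i j with h | h
        · exact h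
        · exact absurd h hn
      have := hdist i j hij
      rw [h0] at this
      rw [← Real.sqrt_sq (dist_nonneg (x := pts i) (y := pts j)), this]
      norm_num)
    (by
      intro i j
      by_cases hij : i = j
      · rw [hij, dist_self]; exact hD.le
      · apply Real.le_sqrt_of_sq_le
        rw [hdist i j hij]
        have h1 : 0 ≤ (sc i * sc j) * (av i j : ℝ) :=
          mul_nonneg (mul_pos (sc_pos i) (sc_pos j)).le (Nat.cast_nonneg _)
        linarith)
    (by
      by_contra hcon
      have hcon' : ∀ a b : Fin 321, a ≠ b → av a b = 1 := by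
        intro a b hab
        by_contra hne
        exact hcon ⟨a, b, hab, hne⟩
      have := hclq Finset.univ (fun a _ b _ hab => hcon' a b hab)
      simp at this)
    hclq (by norm_num)
  refine ⟨Set.range pts, Set.finite_range pts, ?_, key.2⟩
  rw [key.1]; exact hD

end Vale.Agent.Lib.P052
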