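import Mathlib
import Vale.Agent.Lib.P052.Main

/-!
The same configuration as in `Main.lean`, with the number of points made explicit:
a set of exactly 321 points of `ℝ^63` that cannot be cut into fewer than 65 pieces of smaller diameter.
-/

namespace Vale.Agent.Lib.P052

open Finset

theorem tz_lt_two : tz < 2 := by
  have h := tz_eq
  have h0 := tz_pos
  nlinarith

theorem sc_lt_two (i : Fin 321) : sc i < 2 := by
  unfold sc; split_ifs
  · norm_num
  · exact tz_lt_two

theorem borsuk63_card :
    ∃ Y : Finset (EuclideanSpace ℝ (Fin 63)), Y.card = 321 ∧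
      0 < Metric.diam (Y : Set (EuclideanSpace ℝ (Fin 63))) ∧
      ¬ ∃ P : Fin 64 → Set (EuclideanSpace ℝ (Fin 63)),
        (⋃ k, P k) = (Y : Set (EuclideanSpace ℝ (Fin 63))) ∧
        ∀ k, Metric.diam (P k) < Metric.diam (Y : Set (EuclideanSpace ℝ (Fin 63))) := by
  classical
  obtain ⟨u, hu⟩ := exists_vectors_of_proj Pm Pm_gram Pm_trace
  let pts : Fin 321 → EuclideanSpace ℝ (Fin 63) := fun i => sc i • u (inc i)
  have hdist : ∀ i j, i ≠ j →
      dist (pts i) (pts j) ^ 2 = (32 - 8 * (sc i * sc j) * (av i j : ℝ)) / 96 := by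
    intro i j hij
    have h1 : dist (pts i) (pts j) ^ 2 = sc i ^ 2 * Pm (inc i) (inc i)
        - 2 * (sc i * sc j) * Pm (inc i) (inc j) + sc j ^ 2 * Pm (inc j) (inc j) := by
      rw [dist_eq_norm, norm_sub_sq_real, ← real_inner_self_eq_norm_sq, ← real_inner_self_eq_norm_sq]
      simp only [pts, inner_smul_left, inner_smul_right, hu]
      simp
      ring
    rw [h1, Pm_off i j hij, Pm_diag, Pm_diag]
    have := scale_identity i j hij
    linear_combination this / 96
  have hD : (0 : ℝ) < Real.sqrt (1 / 3) := Real.sqrt_pos.2 (by norm_num)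
  have hav : ∀ i j, av i j = 0 ∨ av i j = 1 := fun i j => abit_cases _ _
  have hinj : Function.Injective pts := by
    intro i j hij
    by_contra hne
    have h := hdist i j hne
    rw [hij, dist_self] at h
    have h1 : sc i * sc j < 4 := by
      have a1 := sc_pos i
      have a2 := sc_pos j
      have b1 := sc_lt_two i
      have b2 := sc_lt_two j
      nlinarith
    have h2 : (av i j : ℝ) ≤ 1 := by
      rcases hav i j with h | h <;> rw [h] <;> norm_num
    have h3 : (0 : ℝ) ≤ (av i j : ℝ) := Nat.cast_nonneg _
    have h4 : 0 < sc i * sc j := mul_pos (sc_pos i) (sc_pos j)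
    have h5 : (sc i * sc j) * (av i j : ℝ) < 4 := by nlinarith
    have h6 : (0 : ℝ) < (32 - 8 * (sc i * sc j) * (av i j : ℝ)) / 96 := by
      apply div_pos _ (by norm_num)
      nlinarith
    rw [← h] at h6
    norm_num at h6
  have hclq : ∀ Q : Finset (Fin 321), (∀ a ∈ Q, ∀ b ∈ Q, a ≠ b → av a b = 1) → Q.card ≤ 5 := by
    intro Q hQ
    have := clique_bound (Q.map Fin.valEmbedding) (by
      intro v hv
      obtain ⟨a, _, rfl⟩ := Finset.mem_map.1 hv
      exact a.2) (by
      intro a ha b hb hab
      obtain ⟨a', ha', rfl⟩ := Finset.mem_map.1 ha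
      obtain ⟨b', hb', rfl⟩ := Finset.mem_map.1 hb
      exact hQ a' ha' b' hb' (fun h => hab (by rw [h])))
    rwa [Finset.card_map] at this
  have key := no_partition (m := 64) (c := 5) pts (fun i j => av i j = 1) (Real.sqrt (1 / 3)) hD
    (by
      intro i j hij hn
      have h0 : av i j = 0 := by
        rcases hav i j with h | h
        · exact h
        · exact absurd h hn
      have := hdist i j hij
      rw [h0] at this
      rw [← Real.sqrt_sq (dist_nonneg (x := pts i) (y := pts j)), this]
      norm_num)
    (by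
      intro i j
      by_cases hij : i = j
      · rw [hij, dist_self]; exact hD.le
      · apply Real.le_sqrt_of_sq_le
        rw [hdist i j hij]
        have h1 : 0 ≤ (sc i * sc j) * (av i j : ℝ) :=
          mul_nonneg (mul_pos (sc_pos i) (sc_pos j)).le (Nat.cast_nonneg _)
        linarith)
    (by
      by_contra hcon
      have hcon' : ∀ a b : Fin 321, a ≠ b → av a b = 1 := by
        intro a b hab
        by_contra hne
        exact hcon ⟨a, b, hab, hne⟩
      have := hclq Finset.univ (fun a _ b _ hab => hcon' a b hab)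
      simp at this)
    hclq (by norm_num)
  have hcoe : ((Finset.univ.image pts : Finset (EuclideanSpace ℝ (Fin 63))) :
      Set (EuclideanSpace ℝ (Fin 63))) = Set.range pts := by
    simp
  refine ⟨Finset.univ.image pts, ?_, ?_, ?_⟩
  · rw [Finset.card_image_of_injective _ hinj]
    simp
  · rw [hcoe, key.1]; exact hD
  · rw [hcoe]; exact key.2

end Vale.Agent.Lib.P052
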